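import Mathlib

/-!
P113: the definitions of the statement.

A function on the torus `(ℝ/ℤ)^3` is a `ℤ^3`-periodic function on `Fin 3 → ℝ`, and a path on the
torus is given by its lift to `Fin 3 → ℝ`.  All codes (machines, words, terms) are products, sums
and lists of natural numbers, integers, rationals and booleans, so that they carry the encodings of
Mathlib, and an algorithm is a `Computable` function in the sense of Mathlib.
-/

open MeasureTheory Set Function

namespace Vale.Agent.P113

/-! ### Admissible functions -/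

/-- `ρ(s) = exp (-1 / (1 - s^2))` for `|s| < 1`, and `0` otherwise. -/
noncomputable def rho (s : ℝ) : ℝ := if |s| < 1 then Real.exp (-1 / (1 - s ^ 2)) else 0

/-- `κ`, the integral of `ρ` over the real line. -/
noncomputable def kappa : ℝ := ∫ s, rho s

/-- `σ(s)`, the integral of `ρ` from `-∞` to `s`. -/
noncomputable def sigma (s : ℝ) : ℝ := ∫ x in Iic s, rho x

/-- `π_ℓ(s) = σ(s) - σ(s - ℓ)`. -/
noncomputable def piL (l s : ℝ) : ℝ := sigma s - sigma (s - l)

/-- The code of a bump: `(k, inl j, a, b)` stands for `s ↦ s^k ρ^(j)(a s - b)`, and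
`(k, inr ℓ, a, b)` stands for `s ↦ s^k π_ℓ(a s - b)`. -/
abbrev Bump : Type := ℕ × (ℕ ⊕ ℚ) × ℚ × ℚ

/-- The bump given by a code. -/
noncomputable def Bump.eval : Bump → ℝ → ℝ
  | (k, .inl j, a, b) => fun s => s ^ k * iteratedDeriv j rho (a * s - b)
  | (k, .inr l, a, b) => fun s => s ^ k * piL l (a * s - b)

/-- The side conditions `a ≠ 0` and `ℓ > 0`. -/
def Bump.Valid : Bump → Prop
  | (_, .inl _, a, _) => a ≠ 0
  | (_, .inr l, a, _) => a ≠ 0 ∧ 0 < l

/-- The `1`-periodization `P[g](y) = ∑_{m ∈ ℤ} g(y + m)`. -/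
noncomputable def per (g : ℝ → ℝ) (y : ℝ) : ℝ := ∑' m : ℤ, g (y + m)

/-- The code `(q, m, n, [r_1, …, r_s])` of the constant `q ν^m κ^n ∏ ln r_i`. -/
abbrev Coef : Type := ℚ × ℕ × ℤ × List ℚ

/-- The constant given by a code. -/
noncomputable def Coef.eval (ν : ℝ) : Coef → ℝ
  | (q, m, n, rs) => q * ν ^ m * kappa ^ n * (rs.map fun r : ℚ => Real.log r).prod

/-- The code `(c, θ, h)` of a term `c θ(t) h_1(x_1) h_2(x_2) h_3(x_3)`: the list `θ` holds the
time factors, `(false, g)` for `g(t)` and `(true, g)` for `P[g](t)`, and the list `h i` holds the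
bumps whose periodizations are the factors of `h_i`.  An empty list stands for the factor `1`. -/
abbrev Term : Type := Coef × List (Bool × Bump) × (Fin 3 → List Bump)

/-- The function of `(t, x)` given by the code of a term. -/
noncomputable def Term.eval (ν : ℝ) (τ : Term) (t : ℝ) (x : Fin 3 → ℝ) : ℝ :=
  τ.1.eval ν * (τ.2.1.map fun g => if g.1 then per g.2.eval t else g.2.eval t).prod *
    ∏ i, ((τ.2.2 i).map fun g => per g.eval (x i)).prod

/-- The side conditions of a term: all `r_i` are positive and all bumps are valid. -/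
def Term.Valid (τ : Term) : Prop :=
  (∀ r ∈ τ.1.2.2.2, 0 < r) ∧ (∀ g ∈ τ.2.1, g.2.Valid) ∧ ∀ i, ∀ g ∈ τ.2.2 i, g.Valid

/-- A term is periodic if all its time factors are periodizations. -/
def Term.periodic (τ : Term) : Bool := τ.2.1.all fun g => g.1

/-- The force whose component `i` is the sum of the terms of the list `L i`. -/
noncomputable def force (ν : ℝ) (L : Fin 3 → List Term) (i : Fin 3) (t : ℝ) (x : Fin 3 → ℝ) : ℝ :=
  ((L i).map fun τ => τ.eval ν t x).sum

/-! ### Machines -/

/-- A deterministic one-tape Turing machine `(start, halting, table)`.  States and symbols are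
natural numbers and the blank is `0`; `start` is the initial state, `halting` is the list of the
halting states, and the entry `s` of the row `q` of the finite `table` is the triple (next state,
written symbol, move) for the state `q` and the scanned symbol `s`.  The move is `some false` for
left, `some true` for right and `none` for no move. -/
abbrev Machine : Type := ℕ × List ℕ × List (List (ℕ × ℕ × Option Bool))

/-- The transition function.  For a machine with `n` states and `m` symbols the table has `n` rows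
of length `m`, and the default value (change nothing) is never used. -/
def Machine.delta (M : Machine) (q s : ℕ) : ℕ × ℕ × Option Bool :=
  (M.2.2.getD q []).getD s (q, s, none)

/-- A configuration: the state, the position of the head, and the two-sided tape. -/
abbrev Config : Type := ℕ × ℤ × (ℤ → ℕ)

/-- The displacement of the head. -/
def shift : Option Bool → ℤ
  | none => 0
  | some false => -1
  | some true => 1

/-- One step of the machine. -/
def Machine.step (M : Machine) (c : Config) : Config :=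
  ((M.delta c.1 (c.2.2 c.2.1)).1, c.2.1 + shift (M.delta c.1 (c.2.2 c.2.1)).2.2,
    update c.2.2 c.2.1 (M.delta c.1 (c.2.2 c.2.1)).2.1)

/-- The initial configuration: the word `w` in the cells `0, 1, …` of an otherwise blank tape, with
the head at the cell `0`. -/
def Machine.init (M : Machine) (w : List ℕ) : Config :=
  (M.1, 0, fun k => if 0 ≤ k then w.getD k.toNat 0 else 0)

/-- `M` halts on `w`: it reaches a halting state after finitely many steps, possibly none. -/
def Machine.Halts (M : Machine) (w : List ℕ) : Prop :=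
  ∃ n : ℕ, (M.step^[n] (M.init w)).1 ∈ M.2.1

/-- A force compiler: an algorithm which outputs, on every pair `(M, w)`, a list of valid terms for
each component of the force, such that the terms which are not periodic vanish from a time `T₀` on
which does not depend on `(M, w)`, and the list of the periodic terms depends on `M` only. -/
structure IsCompiler (ν : ℝ) (C : Machine × List ℕ → Fin 3 → List Term) : Prop where
  computable : Computable C
  valid : ∀ z i, ∀ τ ∈ C z i, τ.Valid
  vanish : ∃ T₀ : ℝ, ∀ z i, ∀ τ ∈ C z i, τ.periodic = false → ∀ t, T₀ ≤ t → ∀ x, τ.eval ν t x = 0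
  periodic_eq : ∀ M w w' i,
    (C (M, w) i).filter Term.periodic = (C (M, w') i).filter Term.periodic

/-! ### The Navier-Stokes system on the torus -/

/-- The derivative in time of `g` on `[0, T]` (one-sided at the ends). -/
noncomputable def dt (T : ℝ) (g : ℝ → (Fin 3 → ℝ) → ℝ) (t : ℝ) (x : Fin 3 → ℝ) : ℝ :=
  derivWithin (fun s => g s x) (Icc 0 T) t

/-- The derivative of `g` in the variable `x_j`. -/
noncomputable def dx (j : Fin 3) (g : ℝ → (Fin 3 → ℝ) → ℝ) (t : ℝ) (x : Fin 3 → ℝ) : ℝ :=
  deriv (fun s => g t (update x j s)) (x j)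

/-- `g` is a function on `[0, T] × 𝕋^3`: it is `ℤ^3`-periodic in `x`. -/
def OnTorus (T : ℝ) (g : ℝ → (Fin 3 → ℝ) → ℝ) : Prop :=
  ∀ t ∈ Icc 0 T, ∀ (x : Fin 3 → ℝ) (m : Fin 3 → ℤ), g t (x + fun i => (m i : ℝ)) = g t x

/-- `g` is continuous on `[0, T] × ℝ^3`. -/
def ContOn (T : ℝ) (g : ℝ → (Fin 3 → ℝ) → ℝ) : Prop :=
  ContinuousOn (fun z : ℝ × (Fin 3 → ℝ) => g z.1 z.2) (Icc 0 T ×ˢ univ)

/-- The derivatives of `g` in the three space variables exist on `[0, T] × ℝ^3`. -/
def HasDx (T : ℝ) (g : ℝ → (Fin 3 → ℝ) → ℝ) : Prop :=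
  ∀ j, ∀ t ∈ Icc 0 T, ∀ x, DifferentiableAt ℝ (fun s => g t (update x j s)) (x j)

/-- `(u, p)` is a classical solution on `[0, T] × 𝕋^3` of the Navier-Stokes system with viscosity
`ν` and force `f`, starting from rest; `u i` and `f i` are the components. -/
structure IsClassical (ν : ℝ) (f : Fin 3 → ℝ → (Fin 3 → ℝ) → ℝ) (T : ℝ)
    (u : Fin 3 → ℝ → (Fin 3 → ℝ) → ℝ) (p : ℝ → (Fin 3 → ℝ) → ℝ) : Prop where
  torus_u : ∀ i, OnTorus T (u i)
  torus_p : OnTorus T p
  has_ut : ∀ i, ∀ t ∈ Icc 0 T, ∀ x, DifferentiableWithinAt ℝ (fun s => u i s x) (Icc 0 T) t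
  has_ux : ∀ i, HasDx T (u i)
  has_uxx : ∀ i j, HasDx T (dx j (u i))
  has_px : HasDx T p
  cont_u : ∀ i, ContOn T (u i)
  cont_ut : ∀ i, ContOn T (dt T (u i))
  cont_ux : ∀ i j, ContOn T (dx j (u i))
  cont_uxx : ∀ i j k, ContOn T (dx k (dx j (u i)))
  cont_p : ContOn T p
  cont_px : ∀ j, ContOn T (dx j p)
  mean_p : ∀ t ∈ Icc 0 T, ∫ x in Icc (0 : Fin 3 → ℝ) 1, p t x = 0
  momentum : ∀ i, ∀ t ∈ Icc 0 T, ∀ x, dt T (u i) t x + ∑ j, u j t x * dx j (u i) t x =
    -dx i p t x + ν * ∑ j, dx j (dx j (u i)) t x + f i t x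
  div_free : ∀ t ∈ Icc 0 T, ∀ x, ∑ j, dx j (u j) t x = 0
  rest : ∀ i x, u i 0 x = 0

/-- `g` is smooth on `[0, ∞) × ℝ^3`. -/
def SmoothOn (g : ℝ → (Fin 3 → ℝ) → ℝ) : Prop :=
  ContDiffOn ℝ (⊤ : ℕ∞) (fun z : ℝ × (Fin 3 → ℝ) => g z.1 z.2) (Ici 0 ×ˢ univ)

/-- `X` is (the lift to `ℝ^3` of) a trajectory of the point `a`: `X(0) = a` and
`X'(t) = u(t, X(t))` for all `t ≥ 0`. -/
def IsTrajectory (u : Fin 3 → ℝ → (Fin 3 → ℝ) → ℝ) (a : Fin 3 → ℝ) (X : ℝ → Fin 3 → ℝ) : Prop :=
  X 0 = a ∧ ∀ t, 0 ≤ t → HasDerivWithinAt X (fun i => u i t (X t)) (Ici 0) t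

/-- The projection of `ℝ^3` onto the torus `(ℝ/ℤ)^3`. -/
def toTorus (x : Fin 3 → ℝ) : Fin 3 → AddCircle (1 : ℝ) := fun i => (x i : AddCircle (1 : ℝ))

/-- The image in the torus of the open box with the rational corners `lo` and `hi`. -/
def boxImage (lo hi : Fin 3 → ℚ) : Set (Fin 3 → AddCircle (1 : ℝ)) :=
  toTorus '' {x | ∀ i, (lo i : ℝ) < x i ∧ x i < hi i}

end Vale.Agent.P113
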