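import Vale.Agent.P113.Iface

/-!
P113: the final assembly from the blocks.
-/

open MeasureTheory Set Function

namespace Vale.Agent.P113

open Vale.Agent.P113E

theorem fin_rho_eq (s : ℝ) : rho s = expNegInvGlue (1 - s ^ 2) := by
  unfold rho expNegInvGlue
  by_cases h : |s| < 1
  · have h1 : ¬ (1 - s ^ 2 ≤ 0) := by
      have := (sq_lt_one_iff_abs_lt_one s).2 h
      linarith
    rw [if_pos h, if_neg h1, neg_div, one_div]
  · have h1 : 1 - s ^ 2 ≤ 0 := by
      have := mt (sq_lt_one_iff_abs_lt_one s).1 h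
      linarith [not_lt.1 this]
    rw [if_neg h, if_pos h1]

theorem fin_rho_smooth : ContDiff ℝ (⊤ : ℕ∞) rho := by
  have : rho = fun s => expNegInvGlue (1 - s ^ 2) := funext fin_rho_eq
  rw [this]
  exact expNegInvGlue.contDiff.comp (by fun_prop)

theorem fin_rho_zero {s : ℝ} (h : 1 ≤ |s|) : rho s = 0 := if_neg (not_lt.2 h)

theorem fin_deriv_rho_zero {s : ℝ} (h : 1 < s) : deriv rho s = 0 := by
  have h1 : rho =ᶠ[nhds s] fun _ => 0 := by
    filter_upwards [Ioi_mem_nhds h] with r hr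
    exact fin_rho_zero ((le_of_lt hr).trans (le_abs_self r))
  rw [h1.deriv_eq, deriv_const]

theorem theta0_smooth : ContDiff ℝ (⊤ : ℕ∞) theta0 :=
  contDiff_const.mul (fin_rho_smooth.comp (by fun_prop))

theorem theta0_zero {t : ℝ} (h : t ∉ Icc (0 : ℝ) (1 / 5)) : theta0 t = 0 := by
  have : 1 ≤ |10 * t - 1| := by
    rw [mem_Icc, not_and_or, not_le, not_le] at h
    rcases h with h | h
    · exact le_abs.2 (Or.inr (by linarith))
    · exact le_abs.2 (Or.inl (by linarith))
  rw [theta0, fin_rho_zero this, mul_zero]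

theorem theta0_at_zero : theta0 0 = 0 := by
  rw [theta0, fin_rho_zero (by norm_num), mul_zero]

theorem theta0_hasDerivAt (t : ℝ) :
    HasDerivAt theta0 (100 * kappa⁻¹ * deriv rho (10 * t - 1)) t := by
  have h1 : HasDerivAt rho (deriv rho (10 * t - 1)) (10 * t - 1) :=
    (fin_rho_smooth.differentiable (by simp) _).hasDerivAt
  have h2 : HasDerivAt (fun t : ℝ => 10 * t - 1) (10 * 1) t :=
    ((hasDerivAt_id t).const_mul 10).sub_const 1
  have h3 := (h1.comp t h2).const_mul (10 * kappa⁻¹)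
  refine (h3.congr_deriv ?_ : HasDerivAt (fun t => 10 * kappa⁻¹ * rho (10 * t - 1)) _ t)
  ring

/-- The term of the force which loads the coordinate `c`. -/
def loadTerm (c : ℚ) : Term := ((100 * c, 0, -1, []), [(false, (0, .inl 1, 10, 1))], fun _ => [])

theorem loadTerm_eval (ν : ℝ) (c : ℚ) (t : ℝ) (x : Fin 3 → ℝ) :
    (loadTerm c).eval ν t x = 100 * kappa⁻¹ * deriv rho (10 * t - 1) * c := by
  simp [loadTerm, Term.eval, Coef.eval, Bump.eval, iteratedDeriv_one]
  ring

theorem loadTerm_valid (c : ℚ) : (loadTerm c).Valid := by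
  simp [loadTerm, Term.Valid, Bump.Valid]

theorem loadTerm_periodic (c : ℚ) : (loadTerm c).periodic = false := by
  simp [loadTerm, Term.periodic]

theorem dx_vel (U : Fin 3 → Fn) (β γ : ℚ) (i j : Fin 3) : dx j (vel U β γ i) = dx j (U i) := by
  funext t x
  simp only [dx, vel, deriv_add_const]

theorem final_of (hA : AdmCalcStmt) (hL : AdmListStmt) (hT : TrajStmt) (hF : FlowStmt)
    (hU : UnivStmt) (hS : ShiftStmt) (hC : CodeStmt) (h1 : UniqueStmt) (h2 : SolveStmt) :
    FinalStmt := by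
  obtain ⟨Γ, Λ, _, _, _, _, N, inp, hinp, hN⟩ := hU
  obtain ⟨rules, halts, β, B, dig, hG, hp⟩ := hS Γ Λ N
  obtain ⟨U, hUA, hdiv, hU0, hflow⟩ := hF rules halts hG
  have hFA : ∀ i, dT (U i) + ∑ j, U j * dx j (U i) ∈ Adm := fun i =>
    Adm.add_mem (hA _ (hUA i)).2.2.2.1
      (Adm.sum_mem fun j _ => Adm.mul_mem (hUA j) ((hA _ (hUA i)).2.2.2.2 j))
  have hGA : ∀ i, -∑ j, dx j (dx j (U i)) ∈ Adm := fun i =>
    Adm.neg_mem (Adm.sum_mem fun j _ => (hA _ ((hA _ (hUA i)).2.2.2.2 j)).2.2.2.2 j)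
  choose L hLv hLe using fun i => hL _ (hFA i) _ (hGA i)
  set γ : Machine × List ℕ → ℚ := fun z => code B ((inp z).map dig) with hγ
  set C : Machine × List ℕ → Fin 3 → List Term := fun z =>
    ![L 0, L 1 ++ [loadTerm β], L 2 ++ [loadTerm (γ z)]] with hCdef
  have hmem : ∀ z i, ∀ τ ∈ C z i, τ ∈ L i ∨ ∃ c, τ = loadTerm c := by
    intro z i τ hτ
    fin_cases i
    · exact Or.inl hτ
    · rcases List.mem_append.1 hτ with h | h
      · exact Or.inl h
      · exact Or.inr ⟨_, List.mem_singleton.1 h⟩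
    · rcases List.mem_append.1 hτ with h | h
      · exact Or.inl h
      · exact Or.inr ⟨_, List.mem_singleton.1 h⟩
  refine ⟨0, ![3 / 8, -1, -1], ![5 / 8, 2, 2], C, fun i => by fin_cases i <;> norm_num, ?_⟩
  intro ν hν
  refine ⟨⟨?_, ?_, ⟨1, ?_⟩, ?_⟩, ?_⟩
  · exact (hC.2 100 ![L 0, L 1 ++ [loadTerm β], L 2] 0 (-1) [] [(false, (0, .inl 1, 10, 1))]
      fun _ => []).comp ((hC.1 B).comp (hinp dig))
  · intro z i τ hτ
    rcases hmem z i τ hτ with h | ⟨c, rfl⟩
    · exact (hLv i τ h).1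
    · exact loadTerm_valid c
  · intro z i τ hτ hper t ht x
    rcases hmem z i τ hτ with h | ⟨c, rfl⟩
    · rw [(hLv i τ h).2] at hper
      exact absurd hper (by simp)
    · rw [loadTerm_eval, fin_deriv_rho_zero (by linarith)]
      ring
  · intro M w w' i
    fin_cases i <;> simp [hCdef, loadTerm_periodic]
  intro M w
  set v : Fin 3 → ℝ := ![0, (β : ℝ), (γ (M, w) : ℝ)] with hv
  have hforce : ∀ i t x, force ν (C (M, w)) i t x =
      (dT (U i) + ∑ j, U j * dx j (U i)) t x + ν * (-∑ j, dx j (dx j (U i))) t x +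
        100 * kappa⁻¹ * deriv rho (10 * t - 1) * v i := by
    intro i t x
    rw [← hLe i ν t x]
    fin_cases i <;> simp [force, hCdef, hv, loadTerm_eval]
  have hsm : ∀ i, ContDiff ℝ (⊤ : ℕ∞) fun z : ℝ × (Fin 3 → ℝ) => vel U β (γ (M, w)) i z.1 z.2 :=
    fun i => (hA _ (hUA i)).1.add ((theta0_smooth.comp contDiff_fst).mul contDiff_const)
  have hper : ∀ i t (x : Fin 3 → ℝ) (m : Fin 3 → ℤ),
      vel U β (γ (M, w)) i t (x + fun k => (m k : ℝ)) = vel U β (γ (M, w)) i t x := by
    intro i t x m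
    simp only [vel, (hA _ (hUA i)).2.1 t x m]
  have hsol : ∀ T, 0 < T → IsClassical ν (force ν (C (M, w))) T (vel U β (γ (M, w)))
      fun _ _ => 0 := by
    refine h2 ν _ _ hsm hper (fun t x => ?_) (fun i x => ?_) fun i t x => ?_
    · simp only [dx_vel, hdiv]
    · simp only [vel, hU0 i 0 (by norm_num) x, theta0_at_zero, zero_mul, add_zero]
    · have e1 : dT (vel U β (γ (M, w)) i) t x =
          dT (U i) t x + 100 * kappa⁻¹ * deriv rho (10 * t - 1) * v i := by
        have d1 : DifferentiableAt ℝ (fun s => U i s x) t :=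
          (((hA _ (hUA i)).1.comp (f := fun s : ℝ => (s, x)) (by fun_prop)).differentiable
            (by simp)) t
        exact (d1.hasDerivAt.add ((theta0_hasDerivAt t).mul_const (v i))).deriv
      have e2 : ∀ j, theta0 t * v j * dx j (U i) t x = 0 := by
        intro j
        by_cases ht : t ∈ Icc (0 : ℝ) (1 / 5)
        · simp [dx, hU0 i t ht]
        · rw [theta0_zero ht, zero_mul, zero_mul]
      have e3 : ∑ j, vel U β (γ (M, w)) j t x * dx j (U i) t x =
          ∑ j, U j t x * dx j (U i) t x := by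
        refine Finset.sum_congr rfl fun j _ => ?_
        rw [vel, add_mul, e2, add_zero]
      rw [hforce, e1]
      simp only [dx_vel, e3, Pi.add_apply, Pi.neg_apply, Finset.sum_apply, Pi.mul_apply]
      ring
  refine ⟨fun i => ?_, vel U β (γ (M, w)), fun _ _ => 0, fun i => (hsm i).contDiffOn,
    contDiffOn_const, hsol, fun T hT0 v' q hv' => h1 ν _ T _ _ _ _ hν.le hT0 (hsol T hT0) hv', ?_⟩
  · have e1 : (fun z : ℝ × (Fin 3 → ℝ) => force ν (C (M, w)) i z.1 z.2) = fun z =>
        (dT (U i) + ∑ j, U j * dx j (U i)) z.1 z.2 + ν * (-∑ j, dx j (dx j (U i))) z.1 z.2 +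
          100 * kappa⁻¹ * deriv rho (10 * z.1 - 1) * v i := funext fun z => hforce i z.1 z.2
    unfold SmoothOn
    rw [e1]
    have d1 : ContDiff ℝ (⊤ : ℕ∞) (deriv rho) := (contDiff_infty_iff_deriv.1 fin_rho_smooth).2
    exact (((hA _ (hFA i)).1.add (contDiff_const.mul (hA _ (hGA i)).1)).add
      ((contDiff_const.mul (d1.comp (by fun_prop))).mul contDiff_const)).contDiffOn
  obtain ⟨⟨X, hX⟩, huniq⟩ := hT _ hsm hper fun i => ((0 : Fin 3 → ℚ) i : ℝ)
  refine ⟨X, hX, fun Y hY => huniq Y X hY hX, ?_⟩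
  obtain ⟨p, hp0, hpA, hpB⟩ := hp (inp (M, w))
  have hX' : IsTrajectory (vel U (p 0).1 (p 0).2) 0 X := by
    rw [hp0]
    have : (0 : Fin 3 → ℝ) = fun i => ((0 : Fin 3 → ℚ) i : ℝ) := by
      funext i
      simp
    rw [this]
    exact hX
  obtain ⟨hfA, hfB⟩ := hflow p X hX'
  rw [← hN (M, w)]
  constructor
  · rintro ⟨t, ht, y, hy, hyX⟩
    by_contra hdom
    have h3 := hfA (hpA hdom) t ht
    have h4 := hy 0
    have h5 : ((y 0 : ℝ) : AddCircle (1 : ℝ)) = (X t 0 : ℝ) := congrFun hyX 0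
    simp only [Matrix.cons_val_zero] at h4
    push_cast at h4
    rw [AddCircle.coe_eq_coe_iff_of_mem_Ico (a := 0) ⟨by linarith [h4.1], by linarith [h4.2]⟩
      ⟨h3.1, by linarith [h3.2]⟩] at h5
    linarith [h4.1, h3.2]
  · intro hdom
    obtain ⟨K, hK1, hK2⟩ := hpB hdom
    obtain ⟨t, ht, hXt⟩ := hfB K hK1 hK2
    refine ⟨t, ht, fun i => Int.fract (X t i), fun i => ?_, ?_⟩
    · have h3 := Int.fract_nonneg (X t i)
      have h4 := Int.fract_lt_one (X t i)
      fin_cases i
      · have : Int.fract (X t 0) = 1 / 2 := by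
          rw [hXt, Int.fract_eq_self]
          norm_num
        simp only [Fin.zero_eta, this, Matrix.cons_val_zero]
        norm_num
      · simp only [Fin.mk_one, Matrix.cons_val_one, Matrix.cons_val_zero] at h3 h4 ⊢
        push_cast
        constructor <;> linarith
      · simp only [Fin.reduceFinMk, Matrix.cons_val] at h3 h4 ⊢
        push_cast
        constructor <;> linarith
    · funext i
      exact AddCircle.coe_fract (X t i)

end Vale.Agent.P113
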