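import Vale.Agent.P113.Iface
import Vale.Agent.P113E.Traj

/-!
P113: the last block, in the form of the properties of the field.
-/

open Set

namespace Vale.Agent.P113

open Vale.Agent.P113E

/-- Block E': a field which carries out a finite system of affine rules. -/
def DriveStmt : Prop :=
  ∀ (rules : List Rule) (halts : List Rect), Good rules halts →
    ∃ U : Fin 3 → Fn, (∀ i, U i ∈ Adm) ∧ (∀ t x, ∑ j, dx j (U j) t x = 0) ∧
      (∀ i, ∀ t ∈ Icc (0 : ℝ) (1 / 5), ∀ x, U i t x = 0) ∧
      ∃ θ Θ : ℕ → ℝ → ℝ, ∀ β γ : ℚ,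
        Drives (fun t x i => vel U β γ i t x) rules halts β γ θ Θ

end Vale.Agent.P113
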