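import Vale.Agent.P113.Iface
import Vale.Agent.P113U.Unique

/-!
P113: the blocks F1 (uniqueness of classical solutions) and F2 (a divergence-free field solves the
system for the force which it defines).
-/

open MeasureTheory Set Function

namespace Vale.Agent.P113

theorem OnTorus.single {T : ℝ} {g : Fn} (h : OnTorus T g) {t : ℝ} (ht : t ∈ Icc 0 T)
    (x : Fin 3 → ℝ) (j : Fin 3) : g t (x + Pi.single j 1) = g t x := by
  rw [← h t ht x (Pi.single j 1)]
  congr 2
  funext i
  by_cases hi : i = j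
  · subst hi
    simp
  · simp [hi]

theorem ContOn.slice {T : ℝ} {g : Fn} (h : ContOn T g) {t : ℝ} (ht : t ∈ Icc 0 T) :
    Continuous (g t) := P113U.cont_slice ht h

theorem IsClassical.sol {ν T : ℝ} {f u : Fin 3 → Fn} {p : Fn} (h : IsClassical ν f T u p) :
    P113U.Sol ν T (fun t x i => f i t x) (fun t x i => u i t x) p (fun t x i => dt T (u i) t x)
      (fun j t x i => dx j (u i) t x) (fun j t x i => dx j (dx j (u i)) t x)
      (fun j t x => dx j p t x) where
  per_u _ ht x j := funext fun i => (h.torus_u i).single ht x j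
  per_p _ ht x j := h.torus_p.single (Ioo_subset_Icc_self ht) x j
  cont_u i := h.cont_u i
  cont_ut i := h.cont_ut i
  cont_ux j i := h.cont_ux i j
  cont_uxx _ ht j i := (h.cont_uxx i j j).slice (Ioo_subset_Icc_self ht)
  cont_p := h.cont_p
  cont_px _ ht j := (h.cont_px j).slice (Ioo_subset_Icc_self ht)
  d_t t ht x i :=
    (h.has_ut i t (Ioo_subset_Icc_self ht) x).hasDerivWithinAt.hasDerivAt (Icc_mem_nhds ht.1 ht.2)
  d_x t ht j x i := (h.has_ux i j t (Ioo_subset_Icc_self ht) x).hasDerivAt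
  d_xx t ht j x i := (h.has_uxx i j j t (Ioo_subset_Icc_self ht) x).hasDerivAt
  d_p t ht j x := (h.has_px j t (Ioo_subset_Icc_self ht) x).hasDerivAt
  eqn t ht x i := h.momentum i t (Ioo_subset_Icc_self ht) x
  div t ht x := h.div_free t (Ioo_subset_Icc_self ht) x
  init x := funext fun i => h.rest i x
  mean t ht := h.mean_p t (Ioo_subset_Icc_self ht)

theorem uniqueStmt : UniqueStmt := by
  intro ν f T u v p q hν hT hu hv t ht x
  obtain ⟨h1, h2⟩ := P113U.Sol.unique hν hT hu.sol hv.sol t ht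
  exact ⟨fun i => (congrFun (congrFun h1 x) i).symm, (congrFun h2 x).symm⟩

/-- Smoothness in `(t, x)`. -/
abbrev Smooth (g : Fn) : Prop := ContDiff ℝ (⊤ : ℕ∞) fun z : ℝ × (Fin 3 → ℝ) => g z.1 z.2

theorem Smooth.hasDerivAt_x {g : Fn} (h : Smooth g) (j : Fin 3) (t : ℝ) (x : Fin 3 → ℝ) :
    HasDerivAt (fun s => g t (update x j s))
      (fderiv ℝ (fun z : ℝ × (Fin 3 → ℝ) => g z.1 z.2) (t, x) (0, Pi.single j 1)) (x j) := by
  have h1 := (h.differentiable (by simp) (t, x)).hasFDerivAt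
  have h2 : HasDerivAt (fun s : ℝ => ((t, update x j s) : ℝ × (Fin 3 → ℝ)))
      (0, Pi.single j 1) (x j) := (hasDerivAt_const _ t).prodMk (hasDerivAt_update x j (x j))
  exact HasFDerivAt.comp_hasDerivAt_of_eq (x j) h1 h2 (by simp)

theorem Smooth.hasDerivAt_t {g : Fn} (h : Smooth g) (t : ℝ) (x : Fin 3 → ℝ) :
    HasDerivAt (fun s => g s x)
      (fderiv ℝ (fun z : ℝ × (Fin 3 → ℝ) => g z.1 z.2) (t, x) (1, 0)) t := by
  have h1 := (h.differentiable (by simp) (t, x)).hasFDerivAt
  have h2 : HasDerivAt (fun s : ℝ => ((s, x) : ℝ × (Fin 3 → ℝ))) (1, 0) t :=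
    (hasDerivAt_id t).prodMk (hasDerivAt_const _ x)
  exact HasFDerivAt.comp_hasDerivAt t h1 h2

theorem Smooth.fderiv_apply {g : Fn} (h : Smooth g) (e : ℝ × (Fin 3 → ℝ)) :
    ContDiff ℝ (⊤ : ℕ∞) fun z : ℝ × (Fin 3 → ℝ) =>
      fderiv ℝ (fun z : ℝ × (Fin 3 → ℝ) => g z.1 z.2) z e :=
  (h.fderiv_right (m := (⊤ : ℕ∞)) (by simp)).clm_apply contDiff_const

theorem Smooth.dx {g : Fn} (h : Smooth g) (j : Fin 3) : Smooth (dx j g) := by
  have : (fun z : ℝ × (Fin 3 → ℝ) => P113.dx j g z.1 z.2) = fun z =>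
      fderiv ℝ (fun z : ℝ × (Fin 3 → ℝ) => g z.1 z.2) z (0, Pi.single j 1) :=
    funext fun z => (h.hasDerivAt_x j z.1 z.2).deriv
  unfold Smooth
  rw [this]
  exact h.fderiv_apply _

theorem Smooth.dT {g : Fn} (h : Smooth g) : Smooth (dT g) := by
  have : (fun z : ℝ × (Fin 3 → ℝ) => P113.dT g z.1 z.2) = fun z =>
      fderiv ℝ (fun z : ℝ × (Fin 3 → ℝ) => g z.1 z.2) z (1, 0) :=
    funext fun z => (h.hasDerivAt_t z.1 z.2).deriv
  unfold Smooth
  rw [this]
  exact h.fderiv_apply _

theorem Smooth.contOn {g : Fn} (h : Smooth g) (T : ℝ) : ContOn T g := h.continuous.continuousOn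

theorem Smooth.hasDx {g : Fn} (h : Smooth g) (T : ℝ) : HasDx T g :=
  fun j t _ x => (h.hasDerivAt_x j t x).differentiableAt

theorem Smooth.dt_eq {g : Fn} (h : Smooth g) {T t : ℝ} (hT : 0 < T) (ht : t ∈ Icc 0 T)
    (x : Fin 3 → ℝ) : dt T g t x = P113.dT g t x :=
  (h.hasDerivAt_t t x).differentiableAt.derivWithin (uniqueDiffOn_Icc hT t ht)

theorem solveStmt : SolveStmt := by
  intro ν u f hs hper hdiv h0 hf T hT
  have hs' : ∀ i, Smooth (u i) := hs
  have hz : Smooth fun _ _ => 0 := contDiff_const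
  exact
    { torus_u := fun i t _ x m => hper i t x m
      torus_p := fun _ _ _ _ => rfl
      has_ut := fun i t _ x => ((hs' i).hasDerivAt_t t x).differentiableAt.differentiableWithinAt
      has_ux := fun i => (hs' i).hasDx T
      has_uxx := fun i j => ((hs' i).dx j).hasDx T
      has_px := hz.hasDx T
      cont_u := fun i => (hs' i).contOn T
      cont_ut := fun i => ((hs' i).dT.contOn T).congr fun z hz => (hs' i).dt_eq hT hz.1 z.2
      cont_ux := fun i j => ((hs' i).dx j).contOn T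
      cont_uxx := fun i j k => (((hs' i).dx j).dx k).contOn T
      cont_p := hz.contOn T
      cont_px := fun j => (hz.dx j).contOn T
      mean_p := fun _ _ => by simp
      momentum := fun i t ht x => by
        have : P113.dx i (fun _ _ => (0 : ℝ)) t x = 0 := by simp [P113.dx]
        rw [(hs' i).dt_eq hT ht, hf, this]
        ring
      div_free := fun t _ x => hdiv t x
      rest := h0 }

end Vale.Agent.P113
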