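import Vale.Agent.P113.Defs
import Vale.Agent.P113E.Iface

/-!
P113: the blocks of the proof, stated as propositions.  Each block is proved in its own file as
`theorem xxx : XxxStmt`.
-/

open MeasureTheory Set Function

namespace Vale.Agent.P113

open Vale.Agent.P113E

/-- Functions of time and space. -/
abbrev Fn : Type := ℝ → (Fin 3 → ℝ) → ℝ

/-- The generators of the ring of the periodic admissible functions which do not involve `ν`. -/
def gens : Set Fn :=
  {F | (∃ q : ℚ, F = fun _ _ => (q : ℝ)) ∨ (F = fun _ _ => kappa⁻¹) ∨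
    (∃ r : ℚ, 0 < r ∧ F = fun _ _ => Real.log r) ∨
    (∃ g : Bump, g.Valid ∧ F = fun t _ => per g.eval t) ∨
    ∃ (g : Bump) (j : Fin 3), g.Valid ∧ F = fun _ x => per g.eval (x j)}

/-- The ring of the periodic admissible functions which do not involve `ν`. -/
def Adm : Subring Fn := Subring.closure gens

/-- The two-sided derivative in time. -/
noncomputable def dT (g : Fn) : Fn := fun t x => deriv (fun s => g s x) t

/-- Block B1: the functions of the ring are smooth and periodic, and the ring is closed under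
differentiation. -/
def AdmCalcStmt : Prop :=
  ∀ F ∈ Adm, ContDiff ℝ (⊤ : ℕ∞) (fun z : ℝ × (Fin 3 → ℝ) => F z.1 z.2) ∧
    (∀ t (x : Fin 3 → ℝ) (m : Fin 3 → ℤ), F t (x + fun i => (m i : ℝ)) = F t x) ∧
    (∀ t x, F (t + 1) x = F t x) ∧ dT F ∈ Adm ∧ ∀ j, dx j F ∈ Adm

/-- Block B2: `F + ν G` is the sum of a list of valid periodic terms. -/
def AdmListStmt : Prop :=
  ∀ F ∈ Adm, ∀ G ∈ Adm, ∃ L : List Term, (∀ τ ∈ L, τ.Valid ∧ τ.periodic = true) ∧
    ∀ ν t x, (L.map fun τ => τ.eval ν t x).sum = F t x + ν * G t x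

/-- The time profile of the loading: supported in `[0, 1/5]`, of integral one. -/
noncomputable def theta0 (t : ℝ) : ℝ := 10 * kappa⁻¹ * rho (10 * t - 1)

/-- The velocity field: the periodic part `U` and the loading of the point `(0, β, γ)`. -/
noncomputable def vel (U : Fin 3 → Fn) (β γ : ℚ) (i : Fin 3) : Fn :=
  fun t x => U i t x + theta0 t * ![0, (β : ℝ), (γ : ℝ)] i

/-- Block E1: global existence and uniqueness of trajectories of smooth periodic fields. -/
def TrajStmt : Prop :=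
  ∀ u : Fin 3 → Fn, (∀ i, ContDiff ℝ (⊤ : ℕ∞) fun z : ℝ × (Fin 3 → ℝ) => u i z.1 z.2) →
    (∀ i t (x : Fin 3 → ℝ) (m : Fin 3 → ℤ), u i t (x + fun k => (m k : ℝ)) = u i t x) →
    ∀ a, (∃ X, IsTrajectory u a X) ∧
      ∀ X Y, IsTrajectory u a X → IsTrajectory u a Y → ∀ t, 0 ≤ t → X t = Y t

/-- Block E: the flow which carries out a finite system of affine rules. -/
def FlowStmt : Prop :=
  ∀ (rules : List Rule) (halts : List Rect), Good rules halts →
    ∃ U : Fin 3 → Fn, (∀ i, U i ∈ Adm) ∧ (∀ t x, ∑ j, dx j (U j) t x = 0) ∧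
      (∀ i, ∀ t ∈ Icc (0 : ℝ) (1 / 5), ∀ x, U i t x = 0) ∧
      ∀ (p : ℕ → ℚ × ℚ) (X : ℝ → Fin 3 → ℝ), IsTrajectory (vel U (p 0).1 (p 0).2) 0 X →
        ((∀ n, Step rules (p n) (p (n + 1))) → ∀ t, 0 ≤ t → X t 0 ∈ Icc (0 : ℝ) (1 / 8)) ∧
        ∀ N, (∀ n < N, Step rules (p n) (p (n + 1))) → Halted halts (p N) →
          ∃ t, 0 ≤ t ∧ X t 0 = 1 / 2

/-- Block D1: a universal machine with finitely many states and symbols. -/
def UnivStmt : Prop :=
  ∃ (Γ Λ : Type) (_ : Inhabited Γ) (_ : Inhabited Λ) (_ : Finite Γ) (_ : Finite Λ)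
    (N : Turing.TM0.Machine Γ Λ) (inp : Machine × List ℕ → List Γ),
    (∀ dig : Γ → ℕ, Computable fun z => (inp z).map dig) ∧
    ∀ z, (Turing.TM0.eval N (inp z)).Dom ↔ z.1.Halts z.2

/-- The number with the given digits in base `B`. -/
def code (B : ℕ) (l : List ℕ) : ℚ := l.foldr (fun a r => ((a : ℚ) + r) / B) 0

/-- Block D2: a finite machine is simulated by an injective system of affine rules. -/
def ShiftStmt : Prop :=
  ∀ (Γ Λ : Type) [Inhabited Γ] [Inhabited Λ] [Finite Γ] [Finite Λ] (N : Turing.TM0.Machine Γ Λ),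
    ∃ (rules : List Rule) (halts : List Rect) (β : ℚ) (B : ℕ) (dig : Γ → ℕ), Good rules halts ∧
      ∀ l : List Γ, ∃ p : ℕ → ℚ × ℚ, p 0 = (β, code B (l.map dig)) ∧
        (¬ (Turing.TM0.eval N l).Dom → ∀ n, Step rules (p n) (p (n + 1))) ∧
        ((Turing.TM0.eval N l).Dom →
          ∃ K, (∀ n < K, Step rules (p n) (p (n + 1))) ∧ Halted halts (p K))

/-- Block C: the two computable maps into rational data. -/
def CodeStmt : Prop :=
  (∀ B : ℕ, Computable (code B)) ∧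
  ∀ (c : ℚ) (L : Fin 3 → List Term) (m : ℕ) (n : ℤ) (rs : List ℚ) (θ : List (Bool × Bump))
    (h : Fin 3 → List Bump),
    Computable fun γ : ℚ => (![L 0, L 1, L 2 ++ [((c * γ, m, n, rs), θ, h)]] : Fin 3 → List Term)

/-- Block F1: uniqueness of classical solutions. -/
def UniqueStmt : Prop :=
  ∀ (ν : ℝ) (f : Fin 3 → Fn) (T : ℝ) (u v : Fin 3 → Fn) (p q : Fn), 0 ≤ ν → 0 < T →
    IsClassical ν f T u p → IsClassical ν f T v q →
    ∀ t ∈ Icc 0 T, ∀ x, (∀ i, v i t x = u i t x) ∧ q t x = p t x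

/-- Block F2: a smooth periodic divergence-free field which starts from rest is a classical solution
with zero pressure for the force which it defines. -/
def SolveStmt : Prop :=
  ∀ (ν : ℝ) (u f : Fin 3 → Fn),
    (∀ i, ContDiff ℝ (⊤ : ℕ∞) fun z : ℝ × (Fin 3 → ℝ) => u i z.1 z.2) →
    (∀ i t (x : Fin 3 → ℝ) (m : Fin 3 → ℤ), u i t (x + fun k => (m k : ℝ)) = u i t x) →
    (∀ t x, ∑ j, dx j (u j) t x = 0) → (∀ i x, u i 0 x = 0) →
    (∀ i t x, f i t x = dT (u i) t x + ∑ j, u j t x * dx j (u i) t x -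
      ν * ∑ j, dx j (dx j (u i)) t x) →
    ∀ T, 0 < T → IsClassical ν f T u fun _ _ => 0

/-- The final statement. -/
def FinalStmt : Prop :=
  ∃ (a lo hi : Fin 3 → ℚ) (C : Machine × List ℕ → Fin 3 → List Term), (∀ i, lo i < hi i) ∧
    ∀ ν : ℝ, 0 < ν → IsCompiler ν C ∧ ∀ (M : Machine) (w : List ℕ),
      (∀ i, SmoothOn (force ν (C (M, w)) i)) ∧
      ∃ (u : Fin 3 → ℝ → (Fin 3 → ℝ) → ℝ) (p : ℝ → (Fin 3 → ℝ) → ℝ),
        (∀ i, SmoothOn (u i)) ∧ SmoothOn p ∧
        (∀ T, 0 < T → IsClassical ν (force ν (C (M, w))) T u p) ∧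
        (∀ T, 0 < T → ∀ v q, IsClassical ν (force ν (C (M, w))) T v q →
          ∀ t ∈ Icc 0 T, ∀ x, (∀ i, v i t x = u i t x) ∧ q t x = p t x) ∧
        ∃ X, IsTrajectory u (fun i => a i) X ∧
          (∀ Y, IsTrajectory u (fun i => a i) Y → ∀ t, 0 ≤ t → Y t = X t) ∧
          ((∃ t, 0 ≤ t ∧ toTorus (X t) ∈ boxImage lo hi) ↔ M.Halts w)

end Vale.Agent.P113
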