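import Vale.Agent.P113.Final
import Vale.Agent.P113.Iface2
import Vale.Agent.P113.Solve
import Vale.Agent.P113B.Adm
import Vale.Agent.P113C.Halt
import Vale.Agent.P113D.Shift
import Vale.Agent.P113M.Univ

/-!
P113: the final assembly, with a box which embeds into the torus.
-/

open MeasureTheory Set Function

namespace Vale.Agent.P113

open Vale.Agent.P113E

theorem univStmt : UnivStmt := by
  obtain ⟨Γ, Λ, i1, i2, i3, i4, N, inp, h1, h2⟩ := P113M.exists_tm0 P113C.halts_re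
  exact ⟨Γ, Λ, i1, i2, i3, i4, N, inp, fun dig => (h1 dig).to_comp, h2⟩

theorem nice_of {u : Fin 3 → Fn}
    (hs : ∀ i, ContDiff ℝ (⊤ : ℕ∞) fun z : ℝ × (Fin 3 → ℝ) => u i z.1 z.2)
    (hp : ∀ i t (x : Fin 3 → ℝ) (m : Fin 3 → ℤ), u i t (x + fun k => (m k : ℝ)) = u i t x) :
    Nice fun t x i => u i t x where
  smooth := contDiff_pi.2 fun i => (hs i).of_le (by simp)
  per t x j := funext fun i => by
    rw [← hp i t x (Pi.single j 1)]
    congr 2
    funext k
    by_cases hk : k = j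
    · subst hk
      simp
    · simp [hk]

/-- The final statement, with a box of side lengths less than one. -/
def FinalStmt2 : Prop :=
  ∃ (a lo hi : Fin 3 → ℚ) (C : Machine × List ℕ → Fin 3 → List Term),
    (∀ i, lo i < hi i ∧ hi i < lo i + 1) ∧
    ∀ ν : ℝ, 0 < ν → IsCompiler ν C ∧ ∀ (M : Machine) (w : List ℕ),
      (∀ i, SmoothOn (force ν (C (M, w)) i)) ∧
      ∃ (u : Fin 3 → ℝ → (Fin 3 → ℝ) → ℝ) (p : ℝ → (Fin 3 → ℝ) → ℝ),
        (∀ i, SmoothOn (u i)) ∧ SmoothOn p ∧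
        (∀ T, 0 < T → IsClassical ν (force ν (C (M, w))) T u p) ∧
        (∀ T, 0 < T → ∀ v q, IsClassical ν (force ν (C (M, w))) T v q →
          ∀ t ∈ Icc 0 T, ∀ x, (∀ i, v i t x = u i t x) ∧ q t x = p t x) ∧
        ∃ X, IsTrajectory u (fun i => a i) X ∧
          (∀ Y, IsTrajectory u (fun i => a i) Y → ∀ t, 0 ≤ t → Y t = X t) ∧
          ((∃ t, 0 ≤ t ∧ toTorus (X t) ∈ boxImage lo hi) ↔ M.Halts w)

theorem final2_of (hF : DriveStmt) : FinalStmt2 := by
  have hA := admCalc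
  have hL := admList
  have hU := univStmt
  have hS := P113D.shiftStmt
  have hC := P113C.codeStmt
  have h1 := uniqueStmt
  have h2 := solveStmt
  obtain ⟨Γ, Λ, _, _, _, _, N, inp, hinp, hN⟩ := hU
  obtain ⟨rules, halts, β, B, dig, hG, hp⟩ := hS Γ Λ N
  obtain ⟨U, hUA, hdiv, hU0, θ, Θ, hD⟩ := hF rules halts hG
  have hFA : ∀ i, dT (U i) + ∑ j, U j * dx j (U i) ∈ Adm := fun i =>
    Adm.add_mem (hA _ (hUA i)).2.2.2.1
      (Adm.sum_mem fun j _ => Adm.mul_mem (hUA j) ((hA _ (hUA i)).2.2.2.2 j))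
  have hGA : ∀ i, -∑ j, dx j (dx j (U i)) ∈ Adm := fun i =>
    Adm.neg_mem (Adm.sum_mem fun j _ => (hA _ ((hA _ (hUA i)).2.2.2.2 j)).2.2.2.2 j)
  choose L hLv hLe using fun i => hL _ (hFA i) _ (hGA i)
  set γ : Machine × List ℕ → ℚ := fun z => code B ((inp z).map dig) with hγ
  set C : Machine × List ℕ → Fin 3 → List Term := fun z =>
    ![L 0, L 1 ++ [loadTerm β], L 2 ++ [loadTerm (γ z)]] with hCdef
  have hmem : ∀ z i, ∀ τ ∈ C z i, τ ∈ L i ∨ ∃ c, τ = loadTerm c := by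
    intro z i τ hτ
    fin_cases i
    · exact Or.inl hτ
    · rcases List.mem_append.1 hτ with h | h
      · exact Or.inl h
      · exact Or.inr ⟨_, List.mem_singleton.1 h⟩
    · rcases List.mem_append.1 hτ with h | h
      · exact Or.inl h
      · exact Or.inr ⟨_, List.mem_singleton.1 h⟩
  refine ⟨0, ![3 / 8, -1 / 4, -1 / 4], ![5 / 8, 1 / 4, 1 / 4], C,
    fun i => by fin_cases i <;> norm_num, ?_⟩
  intro ν hν
  refine ⟨⟨?_, ?_, ⟨1, ?_⟩, ?_⟩, ?_⟩
  · exact (hC.2 100 ![L 0, L 1 ++ [loadTerm β], L 2] 0 (-1) [] [(false, (0, .inl 1, 10, 1))]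
      fun _ => []).comp ((hC.1 B).comp (hinp dig))
  · intro z i τ hτ
    rcases hmem z i τ hτ with h | ⟨c, rfl⟩
    · exact (hLv i τ h).1
    · exact loadTerm_valid c
  · intro z i τ hτ hper t ht x
    rcases hmem z i τ hτ with h | ⟨c, rfl⟩
    · rw [(hLv i τ h).2] at hper
      exact absurd hper (by simp)
    · rw [loadTerm_eval, fin_deriv_rho_zero (by linarith)]
      ring
  · intro M w w' i
    fin_cases i <;> simp [hCdef, loadTerm_periodic]
  intro M w
  set v : Fin 3 → ℝ := ![0, (β : ℝ), (γ (M, w) : ℝ)] with hv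
  have hforce : ∀ i t x, force ν (C (M, w)) i t x =
      (dT (U i) + ∑ j, U j * dx j (U i)) t x + ν * (-∑ j, dx j (dx j (U i))) t x +
        100 * kappa⁻¹ * deriv rho (10 * t - 1) * v i := by
    intro i t x
    rw [← hLe i ν t x]
    fin_cases i <;> simp [force, hCdef, hv, loadTerm_eval]
  have hsm : ∀ i, ContDiff ℝ (⊤ : ℕ∞) fun z : ℝ × (Fin 3 → ℝ) => vel U β (γ (M, w)) i z.1 z.2 :=
    fun i => (hA _ (hUA i)).1.add ((theta0_smooth.comp contDiff_fst).mul contDiff_const)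
  have hper : ∀ i t (x : Fin 3 → ℝ) (m : Fin 3 → ℤ),
      vel U β (γ (M, w)) i t (x + fun k => (m k : ℝ)) = vel U β (γ (M, w)) i t x := by
    intro i t x m
    simp only [vel, (hA _ (hUA i)).2.1 t x m]
  have hsol : ∀ T, 0 < T → IsClassical ν (force ν (C (M, w))) T (vel U β (γ (M, w)))
      fun _ _ => 0 := by
    refine h2 ν _ _ hsm hper (fun t x => ?_) (fun i x => ?_) fun i t x => ?_
    · simp only [dx_vel, hdiv]
    · simp only [vel, hU0 i 0 (by norm_num) x, theta0_at_zero, zero_mul, add_zero]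
    · have e1 : dT (vel U β (γ (M, w)) i) t x =
          dT (U i) t x + 100 * kappa⁻¹ * deriv rho (10 * t - 1) * v i := by
        have d1 : DifferentiableAt ℝ (fun s => U i s x) t :=
          (((hA _ (hUA i)).1.comp (f := fun s : ℝ => (s, x)) (by fun_prop)).differentiable
            (by simp)) t
        exact (d1.hasDerivAt.add ((theta0_hasDerivAt t).mul_const (v i))).deriv
      have e2 : ∀ j, theta0 t * v j * dx j (U i) t x = 0 := by
        intro j
        by_cases ht : t ∈ Icc (0 : ℝ) (1 / 5)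
        · simp [dx, hU0 i t ht]
        · rw [theta0_zero ht, zero_mul, zero_mul]
      have e3 : ∑ j, vel U β (γ (M, w)) j t x * dx j (U i) t x =
          ∑ j, U j t x * dx j (U i) t x := by
        refine Finset.sum_congr rfl fun j _ => ?_
        rw [vel, add_mul, e2, add_zero]
      rw [hforce, e1]
      simp only [dx_vel, e3, Pi.add_apply, Pi.neg_apply, Finset.sum_apply, Pi.mul_apply]
      ring
  refine ⟨fun i => ?_, vel U β (γ (M, w)), fun _ _ => 0, fun i => (hsm i).contDiffOn,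
    contDiffOn_const, hsol, fun T hT0 v' q hv' => h1 ν _ T _ _ _ _ hν.le hT0 (hsol T hT0) hv', ?_⟩
  · have e1 : (fun z : ℝ × (Fin 3 → ℝ) => force ν (C (M, w)) i z.1 z.2) = fun z =>
        (dT (U i) + ∑ j, U j * dx j (U i)) z.1 z.2 + ν * (-∑ j, dx j (dx j (U i))) z.1 z.2 +
          100 * kappa⁻¹ * deriv rho (10 * z.1 - 1) * v i := funext fun z => hforce i z.1 z.2
    unfold SmoothOn
    rw [e1]
    have d1 : ContDiff ℝ (⊤ : ℕ∞) (deriv rho) := (contDiff_infty_iff_deriv.1 fin_rho_smooth).2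
    exact (((hA _ (hFA i)).1.add (contDiff_const.mul (hA _ (hGA i)).1)).add
      ((contDiff_const.mul (d1.comp (by fun_prop))).mul contDiff_const)).contDiffOn
  have hnice := nice_of hsm hper
  obtain ⟨X, hX0, hX⟩ := hnice.exists_traj 0
  have e0 : (fun i => ((0 : Fin 3 → ℚ) i : ℝ)) = (0 : Fin 3 → ℝ) := by
    funext i
    simp
  rw [e0]
  refine ⟨X, ⟨hX0, hX⟩, fun Y hY => hnice.traj_unique hY.2 hX (hY.1.trans hX0.symm), ?_⟩
  obtain ⟨p, hp0, hpA, hpB⟩ := hp (inp (M, w))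
  rw [← hN (M, w)]
  constructor
  · rintro ⟨t, ht, y, hy, hyX⟩
    by_contra hdom
    have h3 := low_of_orbit hnice hG (hD β (γ (M, w))) hX hX0 hp0 (hpA hdom) t ht
    have h4 := hy 0
    have h5 : ((y 0 : ℝ) : AddCircle (1 : ℝ)) = (X t 0 : ℝ) := congrFun hyX 0
    simp only [Matrix.cons_val_zero] at h4
    push_cast at h4
    rw [AddCircle.coe_eq_coe_iff_of_mem_Ico (a := 0) ⟨by linarith [h4.1], by linarith [h4.2]⟩
      ⟨h3.1, by linarith [h3.2]⟩] at h5
    linarith [h4.1, h3.2]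
  · intro hdom
    obtain ⟨K, hK1, hK2⟩ := hpB hdom
    obtain ⟨t, ht, h3, h4, h5⟩ := high_of_halt hnice hG (hD β (γ (M, w))) hX hX0 hp0 K hK1 hK2
    refine ⟨t, ht, X t, fun i => ?_, rfl⟩
    fin_cases i
    · simp only [Fin.zero_eta, h3, Matrix.cons_val_zero]
      norm_num
    · simp only [Fin.mk_one, Matrix.cons_val_one, Matrix.cons_val_zero]
      push_cast
      constructor <;> linarith [h4.1, h4.2]
    · simp only [Fin.reduceFinMk, Matrix.cons_val]
      push_cast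
      constructor <;> linarith [h5.1, h5.2]

end Vale.Agent.P113
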